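import Vale.Agent.P016Z.Inst.Defs
import Vale.Agent.P016Z.Sym.Defs

/-!
P016, assembly of block II: the structure `SymA` from the statements of block SYM.
-/

open NumberField
open scoped ComplexConjugate

set_option linter.unusedSectionVars false

namespace Vale.Agent.P016Z

open Sym

variable {K : Type} [Field K] [NumberField K] [Dat K]

theorem isUnit_four : IsUnit (4 : R K) := by
  have h := (isUnit_two (K := K)).mul isUnit_two
  rwa [show (2 : R K) * 2 = 4 by norm_num] at h

/-- the arithmetic data -/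
noncomputable def symA {r : J K → J K → ℂ} (hr : IsRec r) (hL : LAM K) (hP : PRIMG K)
    (hM : MOBG K) (h3 : ∀ n : R K, Squarefree n → gs 3 1 n = G2 n)
    (l1 : ∀ a b : R K, a ≠ 0 → b ≠ 0 → lam (a * b) = lam a * lam b)
    (l2 : ∀ a : R K, IsUnit a → lam a = 1) (l3 : ∀ a : R K, a ≠ 0 → ‖lam a‖ = 1) : SymA K where
  x6 := x6
  rc := r
  lam := lam
  eps := fun j => conj (r (cl (4 : K)) j) * gamJ j
  x6_mul := fun n x y _ => x6_mul n x y
  x6_mul_left := fun a b x _ _ => x6_mul_left a b x
  x6_unit := fun _ x h => x6_unit h x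
  x6_per := fun n _ => x6_per n
  x6_zero := fun _ _ _ h => x6_of_not_coprime h
  x6_six := fun _ _ hn h => x6_pow_six hn h
  nontriv := fun p hp => by
    obtain ⟨a, h1, h2⟩ := exists_x6_pow_ne_one hp (j := 2) (by norm_num) (by norm_num)
    exact ⟨a, (hp.coprime_iff_not_dvd.2 h1).symm, h2⟩
  rc_mul_left := hr.mul_left
  rc_mul_right := hr.mul_right
  rc_one_left := hr.one_left
  rc_one_right := hr.one_right
  rc_self := fun j => by rw [hr.self, one_pow]
  recip := hr.recip
  lam_mul := l1
  lam_unit := l2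
  norm_lam := l3
  lam_alp := ⟨0, fun z hz => hL z (by simpa using hz)⟩
  norm_eps := fun j => by rw [norm_mul, Complex.norm_conj, hr.norm_eq, norm_gamJ, mul_one]
  gauss2 := fun n hn => by
    simpa only [gs, mul_one] using (hP n 2 hn (by norm_num) (by norm_num)).1
  gauss1 := fun n hn y => by
    have h0 := hn.ne_zero
    have h1 := hM n y hn
    have h2 : mb n * mb n = 1 := by rw [mb, ← mul_pow]; norm_num
    have h4 : ((√(Nr n : ℝ) : ℝ) : ℂ) ≠ 0 := by exact_mod_cast (sqrt_Nr_pos h0).ne'
    have h5 : ((√(Nr n : ℝ) : ℝ) : ℂ) * conj (gg n) = lam n * conj (gs 2 1 n) := by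
      rw [gg, map_div₀, map_mul, Complex.conj_conj, Complex.conj_ofReal, mul_div_cancel₀ _ h4]
    have h6 : x6 n 4 = r (cl (4 : K)) (cl (n : K)) := hr.unit isUnit_four h0
    rw [gamJ_cl h0, ← h6]
    simp only [gs, pow_one, mul_one] at h1 h5
    change _ = _ * (mb n * _ * _ * _)
    linear_combination mb n * h1 - (rsum n fun x => x6 n x * E n (x * y)) * h2 +
      mb n * gam2 n * conj (x6 n 4) * conj (x6 n y) * h5
  gauss3 := fun n hn y => by
    have h1 := (hP n 3 hn (by norm_num) (by norm_num)).2 y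
    have h2 : conj (x6 n y ^ 3) = x6 n y ^ 3 := by
      rw [map_pow, conj_x6]
      by_cases h : IsCoprime y n
      · linear_combination (x6 n y ^ 9 + x6 n y ^ 3) * x6_pow_six hn.ne_zero h
      · rw [x6_of_not_coprime h]; simp
    rw [h2, h3 n hn] at h1
    exact h1

end Vale.Agent.P016Z
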