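import Vale.Agent.P016Z.Base.Mon
import Vale.Agent.P016Z.Base.Psi
import Vale.Agent.P016Z.Sym.G2
import Vale.Agent.P016Z.TH.Gau1
import Vale.Agent.P016Z.Ab.Rad

/-!
P016, assembly of block II: the arithmetic data on `R`, the functions induced on `M K`, and the
statements of the remaining blocks.
-/

open NumberField
open scoped ComplexConjugate

set_option linter.unusedSectionVars false

namespace Vale.Agent.P016Z

/-- The output of block SYM: `x6 n x = (x/n)_6`, the reciprocity factor `rc`, the Hecke character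
`lam`, and the evaluation of the Gauss sums. -/
structure SymA (K : Type) [Field K] [NumberField K] [Dat K] where
  x6 : R K → R K → ℂ
  rc : J K → J K → ℂ
  lam : R K → ℂ
  eps : J K → ℂ
  x6_mul : ∀ n x y, n ≠ 0 → x6 n (x * y) = x6 n x * x6 n y
  x6_mul_left : ∀ a b x, a ≠ 0 → b ≠ 0 → x6 (a * b) x = x6 a x * x6 b x
  x6_unit : ∀ n x, IsUnit n → x6 n x = 1
  x6_per : ∀ n, n ≠ 0 → PerM n (x6 n)
  x6_zero : ∀ n x, n ≠ 0 → ¬ IsCoprime x n → x6 n x = 0
  x6_six : ∀ n x, n ≠ 0 → IsCoprime x n → x6 n x ^ 6 = 1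
  nontriv : ∀ p, Prime p → ∃ x, IsCoprime x p ∧ x6 p x ^ 2 ≠ 1
  rc_mul_left : ∀ i i' j, rc (i * i') j = rc i j * rc i' j
  rc_mul_right : ∀ i j j', rc i (j * j') = rc i j * rc i j'
  rc_one_left : ∀ j, rc 1 j = 1
  rc_one_right : ∀ i, rc i 1 = 1
  rc_self : ∀ j, rc j j ^ 2 = 1
  recip : ∀ a b, a ≠ 0 → b ≠ 0 → IsCoprime a b →
    x6 b a = rc (cl (a : K)) (cl (b : K)) * x6 a b
  lam_mul : ∀ a b, a ≠ 0 → b ≠ 0 → lam (a * b) = lam a * lam b
  lam_unit : ∀ a, IsUnit a → lam a = 1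
  norm_lam : ∀ a, a ≠ 0 → ‖lam a‖ = 1
  lam_alp : ∃ k : ℕ, ∀ z : R K, ((z : K) - 1) / (Q K : K) ^ (k + 1) ∈ Si K → lam z = alp (z : K)
  norm_eps : ∀ j, ‖eps j‖ = 1
  gauss2 : ∀ n, Squarefree n → ‖rsum n fun x => x6 n x ^ 2 * E n x‖ ^ 2 = Nr n
  gauss1 : ∀ n, Squarefree n → ∀ y, (rsum n fun x => x6 n x * E n (x * y)) =
    conj (x6 n y) * ((-1) ^ (UniqueFactorizationMonoid.factors n).card * eps (cl (n : K)) * lam n *
      conj (rsum n fun x => x6 n x ^ 2 * E n x))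
  gauss3 : ∀ n, Squarefree n → ∀ y, (rsum n fun x => x6 n x ^ 3 * E n (x * y)) =
    x6 n y ^ 3 * Sym.G2 n

variable {K : Type} [Field K] [NumberField K] [Dat K]

namespace SymA

variable (A : SymA K)

theorem rc_six (i j : J K) : A.rc i j ^ 6 = 1 := by
  have h : ∀ n : ℕ, A.rc (i ^ n) j = A.rc i j ^ n := by
    intro n
    induction n with
    | zero => rw [pow_zero, pow_zero, A.rc_one_left]
    | succ n ih => rw [pow_succ, pow_succ, A.rc_mul_left, ih]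
  rw [← h, pow_six_J, A.rc_one_left]

theorem norm_rc (i j : J K) : ‖A.rc i j‖ = 1 := by
  have h := congrArg norm (A.rc_six i j)
  rw [norm_pow, norm_one] at h
  exact (pow_eq_one_iff_of_nonneg (norm_nonneg _) (by norm_num)).1 h

theorem x6_assoc {a b : R K} (ha : a ≠ 0) (h : Associated a b) (x : R K) :
    A.x6 a x = A.x6 b x := by
  obtain ⟨u, rfl⟩ := h
  rw [A.x6_mul_left _ _ _ ha u.ne_zero, A.x6_unit _ _ u.isUnit, mul_one]

theorem x6_of_isUnit {n u : R K} (hn : n ≠ 0) (hu : IsUnit u) :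
    A.x6 n u = A.rc (cl (u : K)) (cl (n : K)) := by
  rw [A.recip u n hu.ne_zero hn hu.isRelPrime_left.isCoprime, A.x6_unit _ _ hu, mul_one]

theorem x6_one {n : R K} (hn : n ≠ 0) : A.x6 n 1 = 1 := by
  rw [A.x6_of_isUnit hn isUnit_one, OneMemClass.coe_one, cl_one, A.rc_one_left]

theorem x6_pow {n : R K} (hn : n ≠ 0) (x : R K) (k : ℕ) : A.x6 n (x ^ k) = A.x6 n x ^ k := by
  induction k with
  | zero => rw [pow_zero, pow_zero, A.x6_one hn]
  | succ k ih => rw [pow_succ, pow_succ, A.x6_mul _ _ _ hn, ih]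

theorem x6_U {n : R K} (hn : n ≠ 0) {η : Kˣ} (hη : η ∈ U K) : A.x6 n (ofK η hη.1) = 1 := by
  rw [A.x6_of_isUnit hn (Units.isUnit _), coe_ofK, cl_eq_one.2 hη.2, A.rc_one_left]

theorem invU_x6 {n : R K} (hn : n ≠ 0) : InvU (A.x6 n) := by
  intro η hη x y h
  have e : y = ofK η hη.1 * x := Subtype.ext h
  rw [e, A.x6_mul _ _ _ hn, A.x6_U hn hη, one_mul]

theorem norm_x6 {n x : R K} (hn : n ≠ 0) (h : IsCoprime x n) : ‖A.x6 n x‖ = 1 := by
  have h1 := congrArg norm (A.x6_six n x hn h)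
  rw [norm_pow, norm_one] at h1
  exact (pow_eq_one_iff_of_nonneg (norm_nonneg _) (by norm_num)).1 h1

theorem norm_x6_le {n : R K} (hn : n ≠ 0) (x : R K) : ‖A.x6 n x‖ ≤ 1 := by
  by_cases h : IsCoprime x n
  · exact (A.norm_x6 hn h).le
  · rw [A.x6_zero n x hn h, norm_zero]; exact zero_le_one

theorem conj_x6 {n : R K} (hn : n ≠ 0) (x : R K) : conj (A.x6 n x) = A.x6 n x ^ 5 := by
  by_cases h : IsCoprime x n
  · have h1 : conj (A.x6 n x) * A.x6 n x = 1 := by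
      rw [Complex.conj_mul', A.norm_x6 hn h]; simp
    linear_combination A.x6 n x ^ 5 * h1 - conj (A.x6 n x) * A.x6_six n x hn h
  · rw [A.x6_zero n x hn h]; simp

theorem lam_assoc {a b : R K} (ha : a ≠ 0) (h : Associated a b) : A.lam a = A.lam b := by
  obtain ⟨u, rfl⟩ := h
  rw [A.lam_mul _ _ ha u.ne_zero, A.lam_unit _ u.isUnit, mul_one]

theorem lam_pow {a : R K} (ha : a ≠ 0) (k : ℕ) : A.lam (a ^ k) = A.lam a ^ k := by
  induction k with
  | zero => rw [pow_zero, pow_zero, A.lam_unit _ isUnit_one]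
  | succ k ih => rw [pow_succ, pow_succ, A.lam_mul _ _ (pow_ne_zero _ ha) ha, ih]

open Classical in
/-- the cubic symbol on `K` -/
noncomputable def s3 (x y : K) : ℂ :=
  if h : TH.Cop x y then A.x6 ⟨y, h.2.1⟩ ⟨x, h.1⟩ ^ 2 else 0

theorem s3_coe (x : R K) {y : R K} (hy : y ≠ 0) : A.s3 x y = A.x6 y x ^ 2 := by
  unfold s3
  split_ifs with h
  · rfl
  · rw [A.x6_zero y x hy fun h1 => h (TH.cop_iff.2 ⟨hy, h1⟩)]; simp

theorem s3_of_not {x y : K} (h : ¬ TH.Cop x y) : A.s3 x y = 0 := dif_neg h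

/-- the data for block THETA -/
noncomputable def sy : TH.Sy K where
  s := A.s3
  h := fun x y => A.rc (cl x) (cl y) ^ 2
  s_zero := fun _ _ h => A.s3_of_not h
  s_cube := fun x y h => by
    obtain ⟨h1, h2⟩ := (TH.cop_iff (x := ⟨x, h.1⟩) (y := ⟨y, h.2.1⟩)).1 h
    rw [A.s3_coe ⟨x, h.1⟩ h1, ← pow_mul]
    exact A.x6_six _ _ h1 h2
  s_mul_left := fun x x' y hx hx' => by
    by_cases hy : y ∈ R K ∧ y ≠ 0
    · have h0 : (⟨y, hy.1⟩ : R K) ≠ 0 := fun h => hy.2 (congrArg Subtype.val h)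
      have := A.s3_coe (⟨x, hx⟩ * ⟨x', hx'⟩) h0
      rw [A.x6_mul _ _ _ h0, mul_pow, ← A.s3_coe _ h0, ← A.s3_coe _ h0] at this
      exact this
    · rw [A.s3_of_not fun h => hy ⟨h.2.1, h.2.2.1⟩, A.s3_of_not fun h => hy ⟨h.2.1, h.2.2.1⟩,
        zero_mul]
  s_mul_right := fun x y y' hy hy' => by
    by_cases hx : x ∈ R K
    · by_cases h1 : y = 0
      · rw [h1, zero_mul, A.s3_of_not fun h => h.2.2.1 rfl, zero_mul]
      by_cases h2 : y' = 0
      · rw [h2, mul_zero, A.s3_of_not fun h => h.2.2.1 rfl, mul_zero]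
      have h3 : (⟨y, hy⟩ : R K) ≠ 0 := fun h => h1 (congrArg Subtype.val h)
      have h4 : (⟨y', hy'⟩ : R K) ≠ 0 := fun h => h2 (congrArg Subtype.val h)
      have := A.s3_coe ⟨x, hx⟩ (mul_ne_zero h3 h4)
      rw [A.x6_mul_left _ _ _ h3 h4, mul_pow, ← A.s3_coe _ h3, ← A.s3_coe _ h4] at this
      exact this
    · rw [A.s3_of_not fun h => hx h.1, A.s3_of_not fun h => hx h.1, zero_mul]
  s_add := fun x y t ht => by
    by_cases hy : y ∈ R K ∧ y ≠ 0
    · have h0 : (⟨y, hy.1⟩ : R K) ≠ 0 := fun h => hy.2 (congrArg Subtype.val h)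
      by_cases hx : x ∈ R K
      · have := A.s3_coe (⟨x, hx⟩ + ⟨y, hy.1⟩ * ⟨t, ht⟩) h0
        rw [A.x6_per _ h0 _ ⟨x, hx⟩ ⟨⟨t, ht⟩, by ring⟩, ← A.s3_coe _ h0] at this
        exact this
      · rw [A.s3_of_not fun h => hx h.1, A.s3_of_not fun h => hx ?_]
        simpa using sub_mem h.1 (mul_mem hy.1 ht)
    · rw [A.s3_of_not fun h => hy ⟨h.2.1, h.2.2.1⟩, A.s3_of_not fun h => hy ⟨h.2.1, h.2.2.1⟩]
  h_mul_left := fun x x' y hx hx' _ => by rw [cl_mul hx hx', A.rc_mul_left, mul_pow]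
  h_mul_right := fun x y y' _ hy hy' => by rw [cl_mul hy hy', A.rc_mul_right, mul_pow]
  h_cube := fun x y _ _ => by rw [← pow_mul]; exact A.rc_six _ _
  h_self := fun x _ => A.rc_self _
  h_one := fun x y _ hy => by
    have h1 : (y - 1) / (Q K : K) ∈ Si K := by
      simpa using div_pow_mem_Si_mono (k := 1) hy (by omega)
    have h2 : cl ((Units.mk0 y (inv_mem_Si_of_sub_one h1).2 : Kˣ) : K) = 1 :=
      cl_eq_one.2 (P_le_H le_rfl hy)
    rw [Units.val_mk0] at h2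
    rw [h2, A.rc_one_right, one_pow]
  recip := fun x y h hx => by
    obtain ⟨h1, h2⟩ := (TH.cop_iff (x := ⟨x, h.1⟩) (y := ⟨y, h.2.1⟩)).1 h
    have h3 : (⟨x, h.1⟩ : R K) ≠ 0 := fun h => hx (congrArg Subtype.val h)
    have := A.s3_coe ⟨x, h.1⟩ h1
    rw [A.recip _ _ h3 h1 h2, mul_pow, ← A.s3_coe _ h3] at this
    exact this
  nontriv := fun p hp => by
    obtain ⟨x, h1, h2⟩ := A.nontriv p hp
    exact ⟨x, TH.cop_iff.2 ⟨hp.ne_zero, h1⟩, by rwa [A.s3_coe x hp.ne_zero]⟩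

/-- the cubic Gauss sum -/
noncomputable def G3 (n : R K) : ℂ := rsum n fun x => A.x6 n x ^ 2 * E n x

/-- the normalised cubic Gauss sum -/
noncomputable def gR (n : R K) : ℂ := conj (A.lam n) * A.G3 n / (√(Nr n : ℝ) : ℝ)

/-- the weight of a cube -/
noncomputable def wR (b : R K) : ℂ := (√(Nr b : ℝ) : ℝ) * conj (A.lam b) ^ 3

open Classical in
/-- the normalised theta coefficient -/
noncomputable def tauR (x : R K) : ℂ :=
  if h : ∃ p : R K × R K, Squarefree p.1 ∧ p.2 ≠ 0 ∧ x = p.1 * p.2 ^ 3 then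
    A.gR h.choose.1 * A.wR h.choose.2 else 0

/-- the sextic symbol on `M K` -/
noncomputable def chiM (n u : M K) : ℂ := A.x6 (rep n) (rep u)

/-- the quadratic symbol on `M K` -/
noncomputable def rhoM (n u : M K) : ℂ := A.chiM n u ^ 3

/-- the normalised cubic Gauss sum on `M K` -/
noncomputable def gM (n : M K) : ℂ := A.gR (rep n)

/-- the weight of a cube on `M K` -/
noncomputable def wM (b : M K) : ℂ := A.wR (rep b)

/-- the theta coefficient on `M K` -/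
noncomputable def tauM (m : M K) : ℂ := A.tauR (rep m)

theorem chiM_mkM {n : R K} (hn : n ≠ 0) (u : R K) : A.chiM (mkM n) (mkM u) = A.x6 n u := by
  rw [chiM, ← A.x6_assoc hn (associated_rep n)]
  exact lift_mkM (A.invU_x6 hn) u

theorem rhoM_mkM {n : R K} (hn : n ≠ 0) (u : R K) : A.rhoM (mkM n) (mkM u) = A.x6 n u ^ 3 := by
  rw [rhoM, A.chiM_mkM hn]

theorem sy_s (x : R K) {y : R K} (hy : y ≠ 0) : A.sy.s x y = A.x6 y x ^ 2 := A.s3_coe x hy

theorem sy_G {n : R K} (hn : n ≠ 0) : A.sy.G 1 n = A.G3 n := by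
  have h := A.sy.G_eq_rsum_E 1 hn
  rw [OneMemClass.coe_one] at h
  rw [h]
  exact rsum_congr fun d => by rw [A.sy_s d hn, mul_one]

theorem G3_mul {a b : R K} (ha : a ≠ 0) (hb : b ≠ 0) (h : IsCoprime a b) :
    A.G3 (a * b) = A.x6 a b ^ 2 * A.x6 b a ^ 2 * A.G3 a * A.G3 b := by
  rw [← A.sy_G (mul_ne_zero ha hb), ← A.sy_G ha, ← A.sy_G hb, ← A.sy_s b ha, ← A.sy_s a hb]
  exact A.sy.G_mul (one_mem _) (coe_ne_zero ha) (TH.cop_iff.2 ⟨hb, h⟩)

theorem G3_unit {u : R K} (hu : IsUnit u) : A.G3 u = 1 := by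
  rw [← A.sy_G hu.ne_zero]
  exact A.sy.G_unit (one_mem _) ((isUnit_R_iff (coe_ne_zero hu.ne_zero)).1 hu)

theorem G3_mul_unit {n u : R K} (hn : n ≠ 0) (hu : IsUnit u) :
    A.G3 (n * u) = A.x6 n u ^ 2 * A.G3 n := by
  rw [A.G3_mul hn hu.ne_zero hu.isRelPrime_right.isCoprime, A.x6_unit _ _ hu, A.G3_unit hu]
  ring

theorem gR_mul_unit {n u : R K} (hn : n ≠ 0) (hu : IsUnit u) :
    A.gR (n * u) = A.x6 n u ^ 2 * A.gR n := by
  have h : Associated n (n * u) := associated_mul_unit_right _ _ hu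
  rw [gR, gR, A.G3_mul_unit hn hu, ← A.lam_assoc hn h, show Nr (n * u) = Nr n from
    (Nq_congr h).symm]
  ring

theorem invU_gR : InvU A.gR := by
  intro η hη x y h
  have e : y = x * ofK η hη.1 := Subtype.ext (by rw [h, mul_comm]; rfl)
  by_cases hx : x = 0
  · rw [e, hx, zero_mul]
  · rw [e, A.gR_mul_unit hx (Units.isUnit _), A.x6_U hx hη, one_pow, one_mul]

theorem wR_assoc {a b : R K} (h : Associated a b) : A.wR a = A.wR b := by
  by_cases ha : a = 0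
  · rw [ha, (associated_zero_iff_eq_zero b).1 (ha ▸ h.symm)]
  · rw [wR, wR, A.lam_assoc ha h, show Nr a = Nr b from Nq_congr h]

theorem gM_mkM (n : R K) : A.gM (mkM n) = A.gR n := lift_mkM A.invU_gR n

theorem wM_mkM (b : R K) : A.wM (mkM b) = A.wR b := (A.wR_assoc (associated_rep b)).symm

theorem assoc_of_mul_cube {n b n' b' : R K} (hn : Squarefree n) (hn' : Squarefree n') (hb : b ≠ 0)
    (h : n * b ^ 3 = n' * b' ^ 3) : Associated b b' := by
  have key : ∀ {n b n' b' : R K}, Squarefree n → n * b ^ 3 = n' * b' ^ 3 → b ≠ 0 → b' ∣ b := by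
    intro n b n' b' hn h hb
    have h0 : b' ≠ 0 := by
      rintro rfl
      exact mul_ne_zero hn.ne_zero (pow_ne_zero 3 hb) (by rw [h]; simp)
    obtain ⟨x, y, d, hxy, rfl, rfl⟩ := UniqueFactorizationMonoid.exists_reduced_factors' b' b hb
    have hd : d ≠ 0 := left_ne_zero_of_mul hb
    have h1 : n * y ^ 3 = n' * x ^ 3 :=
      mul_left_cancel₀ (pow_ne_zero 3 hd) (by linear_combination h)
    have h2 : x * x ∣ n * y ^ 3 := ⟨n' * x, by rw [h1]; ring⟩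
    have h3 : IsRelPrime (x * x) (y ^ 3) := (hxy.mul_left hxy).pow_right
    exact mul_dvd_mul_left d (hn x (h3.dvd_of_dvd_mul_right h2)).dvd
  have h0 : b' ≠ 0 := by
    rintro rfl
    exact mul_ne_zero hn.ne_zero (pow_ne_zero 3 hb) (by rw [h]; simp)
  exact associated_of_dvd_dvd (key hn' h.symm h0) (key hn h hb)

theorem tauR_eq {n b : R K} (hn : Squarefree n) (hb : b ≠ 0) :
    A.tauR (n * b ^ 3) = A.gR n * A.wR b := by
  have h : ∃ p : R K × R K, Squarefree p.1 ∧ p.2 ≠ 0 ∧ n * b ^ 3 = p.1 * p.2 ^ 3 :=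
    ⟨(n, b), hn, hb, rfl⟩
  rw [tauR, dif_pos h]
  obtain ⟨h1, h2, h3⟩ := h.choose_spec
  generalize h.choose = p at h1 h2 h3
  obtain ⟨u, hu⟩ := assoc_of_mul_cube hn h1 hb h3
  have e : n = p.1 * (u : R K) ^ 3 := mul_right_cancel₀ (pow_ne_zero 3 hb) (by
    rw [h3, ← hu]; ring)
  rw [A.wR_assoc (⟨u, hu⟩ : Associated b p.2), e, A.gR_mul_unit h1.ne_zero (u.isUnit.pow 3),
    A.x6_pow h1.ne_zero, ← pow_mul,
    A.x6_six _ _ h1.ne_zero u.isUnit.isRelPrime_left.isCoprime, one_mul]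

theorem tauR_zero {x : R K} (h : ¬ ∃ n b : R K, Squarefree n ∧ b ≠ 0 ∧ x = n * b ^ 3) :
    A.tauR x = 0 :=
  dif_neg fun ⟨p, hp⟩ => h ⟨p.1, p.2, hp⟩

theorem invU_tauR : InvU A.tauR := by
  intro η hη x y h
  have e : y = ofK η hη.1 * x := Subtype.ext h
  by_cases hx : ∃ n b : R K, Squarefree n ∧ b ≠ 0 ∧ x = n * b ^ 3
  · obtain ⟨n, b, hn, hb, rfl⟩ := hx
    have h1 : Squarefree ((ofK η hη.1 : R K) * n) :=
      (associated_unit_mul_left _ _ (Units.isUnit _)).squarefree_iff.2 hn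
    rw [e, ← mul_assoc, A.tauR_eq h1 hb, A.tauR_eq hn hb, A.invU_gR η hη n _ rfl]
  · rw [A.tauR_zero hx, A.tauR_zero]
    rintro ⟨n, b, hn, hb, h1⟩
    refine hx ⟨((ofK η hη.1)⁻¹ : (R K)ˣ) * n, b,
      (associated_unit_mul_left _ _ (Units.isUnit _)).squarefree_iff.2 hn, hb, ?_⟩
    rw [mul_assoc, ← h1, e, Units.inv_mul_cancel_left]

theorem tauM_mkM (x : R K) : A.tauM (mkM x) = A.tauR x := lift_mkM A.invU_tauR x

end SymA

/-- functions which depend only on the class and on the residue modulo `c` -/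
def Ray (c : M K) (f : M K → ℂ) : Prop :=
  ∀ x y m : R K, mkM m = c → x ≠ 0 → y ≠ 0 → m ∣ x - y → cl (x : K) = cl (y : K) →
    f (mkM x) = f (mkM y)

end Vale.Agent.P016Z
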