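import Vale.Agent.P016Z.Inst.Sext
import Vale.Agent.P016Z.Sc.Main

/-!
P016, assembly of block II: Poisson summation for a pair of sextic symbols.
-/

open NumberField
open scoped ComplexConjugate

set_option linter.unusedSectionVars false

namespace Vale.Agent.P016Z

variable {K : Type} [Field K] [NumberField K] [Dat K]

namespace SymA

variable (A : SymA K)

theorem x6_neg_one {n : R K} (hn : n ≠ 0) : A.x6 n (-1) = 1 := by
  have hz : IsPrimitiveRoot (z12 K) 12 := Dat.hz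
  have h1 : IsPrimitiveRoot (z12 K ^ 6) 2 := hz.pow (by norm_num) (by norm_num)
  let z : R K := ⟨z12 K, mem_R_of_isIntegral (hz.isIntegral (by norm_num))⟩
  have h2 : z ^ 6 = -1 := Subtype.ext (by simpa [z] using h1.eq_neg_one_of_two_right)
  have h3 : IsUnit z := by
    refine IsUnit.of_pow_eq_one (n := 12) ?_ (by norm_num)
    rw [show 12 = 6 * 2 from rfl, pow_mul, h2, neg_one_sq]
  rw [← h2, A.x6_pow hn, A.x6_six _ _ hn h3.isRelPrime_left.isCoprime]

theorem x6_neg {n : R K} (hn : n ≠ 0) (y : R K) : A.x6 n (-y) = A.x6 n y := by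
  rw [← neg_one_mul, A.x6_mul _ _ _ hn, A.x6_neg_one hn, one_mul]

theorem gauss1_conj {a : R K} (ha : Squarefree a) (y : R K) :
    (rsum a fun x => conj (A.x6 a x) * E a (x * y)) =
      A.x6 a y * ((-1) ^ (UniqueFactorizationMonoid.factors a).card * conj (A.eps (cl (a : K))) *
        conj (A.lam a) * A.G3 a) := by
  have := finite_Rs ha.ne_zero
  have h := congrArg conj (A.gauss1 a ha (-y))
  rw [← rsum_conj, A.x6_neg ha.ne_zero] at h
  simp only [map_mul, map_pow, map_neg, map_one, Complex.conj_conj, mul_neg, E_neg] at h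
  exact h

theorem fhat_pair {a b : R K} (ha : Squarefree a) (hb : Squarefree b) (hab : IsCoprime a b)
    (y : R K) : fhat (a * b) (fun x => conj (A.x6 a x) * A.x6 b x) y =
      ((√(Nr a : ℝ) * √(Nr b : ℝ) : ℝ) : ℂ) *
        (A.Esg (mkM a) (mkM b) * (Ab.mob (mkM a) * Ab.mob (mkM b)) * (A.gR a * conj (A.gR b))) *
          (conj (A.x6 b y) * A.x6 a y) := by
  have ha0 := ha.ne_zero
  have hb0 := hb.ne_zero
  have h1 : conj (A.x6 a b) * A.x6 a b = 1 := by
    rw [Complex.conj_mul', A.norm_x6 ha0 hab.symm]; simp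
  have h2 : ((√(Nr a : ℝ) : ℝ) : ℂ) ≠ 0 := by
    exact_mod_cast (Real.sqrt_pos.2 (by exact_mod_cast Nr_pos ha0)).ne'
  have h3 : ((√(Nr b : ℝ) : ℝ) : ℂ) ≠ 0 := by
    exact_mod_cast (Real.sqrt_pos.2 (by exact_mod_cast Nr_pos hb0)).ne'
  have h4 : (rsum a fun x => conj (A.x6 a (b * x)) * E a (x * y)) =
      conj (A.x6 a b) * rsum a fun x => conj (A.x6 a x) * E a (x * y) := by
    rw [← rsum_const_mul]
    exact rsum_congr fun x => by rw [A.x6_mul _ _ _ ha0, map_mul, mul_assoc]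
  have h5 : (rsum b fun x => A.x6 b (a * x) * E b (x * y)) =
      A.x6 b a * rsum b fun x => A.x6 b x * E b (x * y) := by
    rw [← rsum_const_mul]
    exact rsum_congr fun x => by rw [A.x6_mul _ _ _ hb0, mul_assoc]
  have h6 : conj (A.lam a) * A.G3 a = ((√(Nr a : ℝ) : ℝ) : ℂ) * A.gR a := by
    rw [gR, mul_div_cancel₀ _ h2]
  have h7 : A.lam b * conj (A.G3 b) = ((√(Nr b : ℝ) : ℝ) : ℂ) * conj (A.gR b) := by
    rw [gR, map_div₀, map_mul, Complex.conj_conj, Complex.conj_ofReal, mul_div_cancel₀ _ h3]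
  have h8 : (rsum b fun x => A.x6 b x * E b (x * y)) =
      conj (A.x6 b y) * ((-1) ^ (UniqueFactorizationMonoid.factors b).card * A.eps (cl (b : K)) *
        A.lam b * conj (A.G3 b)) := A.gauss1 b hb y
  rw [fhat, rsum_mul_E ha0 hb0 hab (A.x6_per a ha0).conj (A.x6_per b hb0), h4, h5,
    A.gauss1_conj ha, h8, A.recip a b ha0 hb0 hab, Esg, clM_mkM, clM_mkM, mob_mkM,
    mob_mkM, mul_assoc _ (conj (A.lam a)), mul_assoc _ (A.lam b), h6, h7, Complex.ofReal_mul]
  linear_combination (A.rc (cl (a : K)) (cl (b : K)) * A.x6 a y *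
    (-1) ^ (UniqueFactorizationMonoid.factors a).card * conj (A.eps (cl (a : K))) *
    (((√(Nr a : ℝ) : ℝ) : ℂ) * A.gR a) * conj (A.x6 b y) *
    (-1) ^ (UniqueFactorizationMonoid.factors b).card *
    A.eps (cl (b : K)) * (((√(Nr b : ℝ) : ℝ) : ℂ) * conj (A.gR b))) * h1

/-- Poisson summation for a pair of sextic symbols (the field `pair` of `Ab.Sext`) -/
theorem pair : A.Pair := by
  intro a b X ha hb hab
  have ha0 : rep a ≠ 0 := rep_ne_zero.2 ha.1.ne_zero
  have hb0 : rep b ≠ 0 := rep_ne_zero.2 hb.1.ne_zero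
  have ha1 : Squarefree (rep a) := squarefree_mkM.1 (by rw [mkM_rep]; exact ha.2)
  have hb1 : Squarefree (rep b) := squarefree_mkM.1 (by rw [mkM_rep]; exact hb.2)
  have hab1 : IsCoprime (rep a) (rep b) := isRelPrime_mkM.1 (by rwa [mkM_rep, mkM_rep])
  have hX : 0 < Ab.nG X := Ab.Sc.nG_pos X
  have hNa : (0 : ℝ) < Nr (rep a) := by exact_mod_cast Nr_pos ha0
  have hNb : (0 : ℝ) < Nr (rep b) := by exact_mod_cast Nr_pos hb0
  have h := Sc.radPois (mul_ne_zero ha0 hb0)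
    (f := fun x => conj (A.x6 (rep a) x) * A.x6 (rep b) x)
    (((A.x6_per _ ha0).conj.mono (dvd_mul_right _ _)).mul
      ((A.x6_per _ hb0).mono (dvd_mul_left _ _)))
    (fun η hη x y e => by
      simp only [A.invU_x6 ha0 η hη x y e, A.invU_x6 hb0 η hη x y e]) hX
  have hm : ∀ x y : Ab.Gr (M K), Ab.nG (x * y) = Ab.nG x * Ab.nG y := Ab.Sc.nG_mul
  have hd : Ab.nG (Ab.Sc.dl : Ab.Gr (M K)) = 1 := Ab.Sc.nG_dl
  have hs : ∀ x : M K, x ≠ 0 → Ab.nG (Ab.sc x) = Nr (rep x) := Ab.Sc.nG_sc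
  have e1 : Ab.nG (Ab.Sc.dl * (Ab.sc a * Ab.sc b) / X) = Nr (rep a * rep b) / Ab.nG X := by
    rw [eq_div_iff hX.ne', ← hm, div_mul_cancel, hm, hm, hd, one_mul, hs _ ha.1.ne_zero,
      hs _ hb.1.ne_zero, Nr_mul, Nat.cast_mul]
  have e2 : Ab.nG X / Nr (rep a * rep b) * (√(Nr (rep a) : ℝ) * √(Nr (rep b) : ℝ)) =
      Ab.nG X / (√(Nr (rep a) : ℝ) * √(Nr (rep b) : ℝ)) := by
    have h2 := Real.sqrt_pos.2 hNa
    have h3 := Real.sqrt_pos.2 hNb
    rw [Nr_mul, Nat.cast_mul]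
    nth_rewrite 1 [← Real.mul_self_sqrt hNa.le, ← Real.mul_self_sqrt hNb.le]
    field_simp
  simp only [Ab.gw_eq_gr, e1]
  simp only [lift, A.fhat_pair ha1 hb1 hab1, mkM_rep, mul_assoc _ (conj _ * _), tsum_mul_left] at h
  rw [mul_assoc, ← mul_assoc, ← Complex.ofReal_mul, e2] at h
  exact h

theorem muBound_of_thmT (hT : Ab.ThmT Ray A.tauM A.chiM) : MuBound K (11 / 12) :=
  A.muBound_of A.pair hT

end SymA

end Vale.Agent.P016Z
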