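import Vale.Agent.P016Z.Inst.Quad
import Vale.Agent.P016Z.QLS.Final

/-!
P016, assembly of block II: the quadratic large sieve on `M K`.
-/

open NumberField

namespace Vale.Agent.P016Z.SymA

variable {K : Type} [Field K] [NumberField K] [Dat K] (A : SymA K)

/-- the quadratic large sieve for the quadratic symbol on `M K` -/
theorem qls : Ab.QLSmod A.rhoM := QLS.qlsMod exists_prim_assoc A.qsym Sc.thMellin

end Vale.Agent.P016Z.SymA
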