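import Vale.Agent.P016Z.Inst.Sym
import Vale.Agent.P016Z.Inst.Pair
import Vale.Agent.P016Z.Inst.Qls
import Vale.Agent.P016Z.Sym.Ray
import Vale.Agent.P016Z.Sym.Loc
import Vale.Agent.P016Z.TH.Theta
import Vale.Agent.P016Z.Vor.Main

/-!
P016, block II: cancellation in Moebius sums over every number field containing the twelfth
roots of unity.
-/

namespace Vale.Agent.P016Z

theorem mub : MUB (11 / 12) := by
  intro K _ _ z hz
  obtain ⟨D, -, -⟩ := Sym.exists_Dat hz one_ne_zero
  obtain ⟨A⟩ := symA_of_ray (K := K) Sym.ray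
  exact A.muBound_of A.pair (Vor.thmT A A.symV (TH.theta _) A.qls)

end Vale.Agent.P016Z
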