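import Vale.Agent.P016Z.Inst.Defs
import Vale.Agent.P016Z.Sc.Main
import Vale.Agent.P016Z.Vor.Defs

/-!
P016, assembly of block II: the symbol data for the Voronoi block and the quadratic symbol on
`M K`.
-/

open NumberField
open scoped ComplexConjugate

namespace Vale.Agent.P016Z.SymA

variable {K : Type} [Field K] [NumberField K] [Dat K] (A : SymA K)

theorem conj_x6_cube {n : R K} (hn : n ≠ 0) (x : R K) : conj (A.x6 n x ^ 3) = A.x6 n x ^ 3 := by
  rw [map_pow, A.conj_x6 hn]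
  by_cases h : IsCoprime x n
  · have h6 := A.x6_six n x hn h
    calc (A.x6 n x ^ 5) ^ 3 = A.x6 n x ^ 3 * (A.x6 n x ^ 6) ^ 2 := by ring
      _ = A.x6 n x ^ 3 := by rw [h6]; ring
  · rw [A.x6_zero n x hn h]; simp

/-- the reciprocity law without the coprimality condition -/
theorem recip' {a b : R K} (ha : a ≠ 0) (hb : b ≠ 0) :
    A.x6 b a = A.rc (cl (a : K)) (cl (b : K)) * A.x6 a b := by
  by_cases h : IsCoprime a b
  · exact A.recip a b ha hb h
  · rw [A.x6_zero b a hb h, A.x6_zero a b ha fun h1 => h h1.symm, mul_zero]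

/-- the symbol data for the Voronoi block -/
theorem symV : Vor.SymV A.sy (fun x n => A.x6 n x) where
  mul_left x y n hn := A.x6_mul n x y hn
  per n hn := A.x6_per n hn
  pow_six x n hn h := A.x6_six n x hn h
  sq x _ hn := (A.sy_s x hn).symm
  gauss h hh j hj := by
    have h0 := hh.ne_zero
    rcases hj with rfl | rfl
    · refine ⟨(-1) ^ (UniqueFactorizationMonoid.factors h).card * A.eps (cl (h : K)) * A.lam h *
        conj (rsum h fun x => A.x6 h x ^ 2 * E h x), ?_, fun y => ?_⟩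
      · rw [norm_mul, norm_mul, norm_mul, norm_pow, norm_neg, norm_one, one_pow, A.norm_eps,
          A.norm_lam h h0, Complex.norm_conj, one_mul, one_mul, one_mul]
        exact A.gauss2 h hh
      · simp only [pow_one]
        exact A.gauss1 h hh y
    · refine ⟨Sym.G2 h, ?_, fun y => ?_⟩
      · rw [Sym.norm_G2 h0, Real.sq_sqrt (Nat.cast_nonneg _)]
      · rw [A.conj_x6_cube h0]
        exact A.gauss3 h hh y

theorem chiM_mkM_left {n : R K} (hn : n ≠ 0) (u : M K) :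
    A.chiM (mkM n) u = A.x6 n (rep u) := by
  rw [chiM, ← A.x6_assoc hn (associated_rep n)]

/-- the quadratic symbol on `M K` -/
theorem qsym : Ab.QSym A.rhoM where
  mul_right n x y hn := by
    obtain ⟨n, rfl⟩ := mkM_surj n
    obtain ⟨x, rfl⟩ := mkM_surj x
    obtain ⟨y, rfl⟩ := mkM_surj y
    have h0 := (sq_mkM.1 hn).1.1
    rw [← map_mul, A.rhoM_mkM h0, A.rhoM_mkM h0, A.rhoM_mkM h0, A.x6_mul _ _ _ h0, mul_pow]
  mul_left a b x ha hb _ := by
    obtain ⟨a, rfl⟩ := mkM_surj a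
    obtain ⟨b, rfl⟩ := mkM_surj b
    obtain ⟨x, rfl⟩ := mkM_surj x
    have h1 := (sq_mkM.1 ha).1.1
    have h2 := (sq_mkM.1 hb).1.1
    rw [← map_mul, A.rhoM_mkM (mul_ne_zero h1 h2), A.rhoM_mkM h1, A.rhoM_mkM h2,
      A.x6_mul_left _ _ _ h1 h2, mul_pow]
  sq n x hn := by
    obtain ⟨n, rfl⟩ := mkM_surj n
    obtain ⟨x, rfl⟩ := mkM_surj x
    have h0 := (sq_mkM.1 hn).1.1
    rw [A.rhoM_mkM h0, cop_mkM, ← pow_add]
    split_ifs with h
    · exact A.x6_six n x h0 h
    · rw [A.x6_zero n x h0 h]; simp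
  pois a b T ha hb hab hc hT := by
    obtain ⟨a, rfl⟩ := mkM_surj a
    obtain ⟨b, rfl⟩ := mkM_surj b
    have h1 := (sq_mkM.1 ha).1.1
    have h2 := (sq_mkM.1 hb).1.1
    have hn : a * b ≠ 0 := mul_ne_zero h1 h2
    have hsq : Squarefree (a * b) :=
      squarefree_mul_iff.2 ⟨(isRelPrime_mkM.1 hab).isRelPrime, (sq_mkM.1 ha).2, (sq_mkM.1 hb).2⟩
    have hcl : cl (a : K) = cl (b : K) := by
      have := (cm_eq_iff' (mkM_ne_zero.2 h1) (mkM_ne_zero.2 h2)).1 hc
      rwa [clM_mkM, clM_mkM] at this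
    have hG : Sym.G2 (a * b) = (√(Nr (a * b) : ℝ) : ℝ) := Sym.G2_eq_sqrt hn ⟨cl (a : K), by
      rw [MulMemClass.coe_mul, cl_mul (coe_ne_zero h1) (coe_ne_zero h2), ← hcl]⟩
    have hP : PerM (a * b) fun x => A.x6 (a * b) x ^ 3 := fun x y h =>
      congrArg (· ^ 3) (A.x6_per _ hn x y h)
    have hU : InvU fun x => A.x6 (a * b) x ^ 3 := fun η hη x y h =>
      congrArg (· ^ 3) (A.invU_x6 hn η hη x y h)
    have h := Sc.radPois hn hP hU hT
    have e1 : ∀ x : M K, A.rhoM (mkM (a * b)) x = A.x6 (a * b) (rep x) ^ 3 := fun x => by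
      rw [rhoM, A.chiM_mkM_left hn]
    have e2 : ∀ y : M K, lift (fhat (a * b) fun x => A.x6 (a * b) x ^ 3) y =
        ((√(Nr (a * b) : ℝ) : ℝ) : ℂ) * A.x6 (a * b) (rep y) ^ 3 := fun y => by
      rw [lift, fhat, A.gauss3 _ hsq, hG, mul_comm]
    rw [← map_mul, N_mkM]
    simp only [e1]
    simp only [e2, mul_assoc, tsum_mul_left] at h
    rw [← mul_assoc, ← Complex.ofReal_mul] at h
    have hN : (0 : ℝ) < Nr (a * b) := by exact_mod_cast Nr_pos hn
    have e3 : T / (Nr (a * b) : ℝ) * √(Nr (a * b) : ℝ) = T / √(Nr (a * b) : ℝ) := by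
      have hs : 0 < √(Nr (a * b) : ℝ) := Real.sqrt_pos.2 hN
      have := Real.mul_self_sqrt hN.le
      field_simp
      rw [sq, this]
    rw [e3] at h
    exact h
  recip := by
    refine ⟨fun a b => A.rc (clM b) (clM a) ^ 3, fun a b => ?_,
      fun a => per_clM fun j => A.rc j (clM a) ^ 3,
      fun b => per_clM fun j => A.rc (clM b) j ^ 3, fun a b ha hb => ?_⟩
    · rw [norm_pow, A.norm_rc, one_pow]
    · obtain ⟨a, rfl⟩ := mkM_surj a
      obtain ⟨b, rfl⟩ := mkM_surj b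
      have h1 := (sq_mkM.1 ha).1.1
      have h2 := (sq_mkM.1 hb).1.1
      beta_reduce
      rw [A.rhoM_mkM h1, A.rhoM_mkM h2, clM_mkM, clM_mkM, A.recip' h2 h1, mul_pow]
  cm_cancel := cm_cancel

end Vale.Agent.P016Z.SymA
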