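import Vale.Agent.P016Z.Inst.Defs
import Vale.Agent.P016Z.Ab.V6
import Vale.Agent.P016Z.Fin.MuK

/-!
P016, assembly of block II: the sextic data on `M K`.
-/

open NumberField
open scoped ComplexConjugate

set_option linter.unusedSectionVars false

namespace Vale.Agent.P016Z

variable {K : Type} [Field K] [NumberField K] [Dat K]

instance : Nontrivial (M K) := ⟨⟨1, 0, Ab.one_ne_zero'⟩⟩

theorem isQuot : IsQuot (mkM0 : R K →* M K) where
  surj := mkM0_surj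
  dvd_iff := fun _ _ => mkM_dvd
  zero := rfl
  N_mk := N_mkM
  assoc := exists_prim_assoc

namespace SymA

variable (A : SymA K)

theorem chiM_mul {n : M K} (hn : n ≠ 0) (u v : M K) :
    A.chiM n (u * v) = A.chiM n u * A.chiM n v := by
  obtain ⟨n, rfl⟩ := mkM_surj n
  obtain ⟨u, rfl⟩ := mkM_surj u
  obtain ⟨v, rfl⟩ := mkM_surj v
  have h := mkM_ne_zero.1 hn
  rw [← map_mul, A.chiM_mkM h, A.chiM_mkM h, A.chiM_mkM h, A.x6_mul _ _ _ h]

theorem chiM_mul_left {a b : M K} (ha : a ≠ 0) (hb : b ≠ 0) (u : M K) :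
    A.chiM (a * b) u = A.chiM a u * A.chiM b u := by
  obtain ⟨a, rfl⟩ := mkM_surj a
  obtain ⟨b, rfl⟩ := mkM_surj b
  obtain ⟨u, rfl⟩ := mkM_surj u
  have h1 := mkM_ne_zero.1 ha
  have h2 := mkM_ne_zero.1 hb
  rw [← map_mul, A.chiM_mkM h1, A.chiM_mkM h2, A.chiM_mkM (mul_ne_zero h1 h2),
    A.x6_mul_left _ _ _ h1 h2]

theorem chiM_unit {e : M K} (he : IsUnit e) (u : M K) : A.chiM e u = 1 :=
  A.x6_unit _ _ (by rwa [← isUnit_mkM, mkM_rep])

theorem conj_chiM_mul {n : M K} (hn : n ≠ 0) (u : M K) :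
    conj (A.chiM n u) * A.chiM n u = Ab.cop n u := by
  obtain ⟨n, rfl⟩ := mkM_surj n
  obtain ⟨u, rfl⟩ := mkM_surj u
  have h := mkM_ne_zero.1 hn
  rw [A.chiM_mkM h, cop_mkM]
  split_ifs with h1
  · rw [Complex.conj_mul', A.norm_x6 h h1]; simp
  · rw [A.x6_zero _ _ h h1, mul_zero]

theorem conj_chiM {n : M K} (hn : n ≠ 0) (u : M K) : conj (A.chiM n u) = A.chiM n u ^ 5 :=
  A.conj_x6 (rep_ne_zero.2 hn) _

theorem chiM_recip {a b : M K} (ha : a ≠ 0) (hb : b ≠ 0) :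
    A.chiM b a = A.rc (clM a) (clM b) * A.chiM a b := by
  obtain ⟨a, rfl⟩ := mkM_surj a
  obtain ⟨b, rfl⟩ := mkM_surj b
  have h1 := mkM_ne_zero.1 ha
  have h2 := mkM_ne_zero.1 hb
  rw [A.chiM_mkM h1, A.chiM_mkM h2, clM_mkM, clM_mkM]
  by_cases h : IsCoprime a b
  · exact A.recip a b h1 h2 h
  · rw [A.x6_zero _ _ h2 h, A.x6_zero _ _ h1 fun h3 => h h3.symm, mul_zero]

theorem norm_gR {n : R K} (hn : Squarefree n) : ‖A.gR n‖ = 1 := by
  have h0 := hn.ne_zero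
  have h1 : ‖A.G3 n‖ = √(Nr n : ℝ) := by
    rw [← A.gauss2 n hn, Real.sqrt_sq (norm_nonneg _)]; rfl
  rw [gR, norm_div, norm_mul, Complex.norm_conj, A.norm_lam n h0, h1, one_mul, Complex.norm_real,
    Real.norm_of_nonneg (Real.sqrt_nonneg _), div_self (Sym.sqrt_Nr_pos h0).ne']

theorem gR_mul {d n : R K} (hd : d ≠ 0) (hn : n ≠ 0) (h : IsCoprime d n) :
    A.gR (d * n) = A.gR d * A.gR n * A.x6 n (d ^ 4) * A.rc (cl (n : K)) (cl (d : K)) ^ 2 := by
  rw [gR, gR, gR, A.G3_mul hd hn h, A.lam_mul _ _ hd hn, Nr_mul, Nat.cast_mul,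
    Real.sqrt_mul (Nat.cast_nonneg _), A.recip n d hn hd h.symm, A.x6_pow hn, map_mul]
  push_cast
  ring

theorem wR_mul {b c : R K} (hb : b ≠ 0) (hc : c ≠ 0) : A.wR (b * c) = A.wR b * A.wR c := by
  rw [wR, wR, wR, A.lam_mul _ _ hb hc, Nr_mul, Nat.cast_mul, Real.sqrt_mul (Nat.cast_nonneg _),
    map_mul]
  push_cast
  ring

/-- the class factor in the Poisson formula -/
noncomputable def Esg (a b : M K) : ℂ :=
  A.rc (clM a) (clM b) * A.eps (clM b) * conj (A.eps (clM a))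

variable [Ab.Sc (M K)]

/-- Poisson summation together with the evaluation of the Gauss sums -/
def Pair : Prop :=
  ∀ (a b : M K) (X : Ab.Gr (M K)), Ab.Sq a → Ab.Sq b → IsRelPrime a b →
    (∑' x : M K, (conj (A.chiM a x) * A.chiM b x) * (Ab.gw X x : ℂ)) =
      ((Ab.nG X / (Real.sqrt (Ab.N a) * Real.sqrt (Ab.N b)) : ℝ) : ℂ) *
        ((A.Esg a b * (Ab.mob a * Ab.mob b) * (A.gM a * conj (A.gM b))) *
          ∑' x : M K, (conj (A.chiM b x) * A.chiM a x) *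
            (Ab.gw (Ab.Sc.dl * (Ab.sc a * Ab.sc b) / X) x : ℂ))

/-- the sextic data -/
noncomputable def sext (hP : A.Pair) : Ab.Sext (M K) where
  chi := A.chiM
  g := A.gM
  Esg := A.Esg
  E2 := fun d n => A.rc (clM n) (clM d) ^ 2
  w := A.wM
  tau := A.tauM
  chi_mul := fun _ u v hn => A.chiM_mul hn.ne_zero u v
  chi_mul_left := fun _ _ u ha hb => A.chiM_mul_left ha.ne_zero hb.ne_zero u
  chi_one_left := A.chiM_unit isUnit_one
  conj_mul := fun _ u hn => A.conj_chiM_mul hn.ne_zero u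
  conj_eq := fun _ u hn => A.conj_chiM hn.ne_zero u
  norm_g := fun n hn => A.norm_gR (by rw [← squarefree_mkM, mkM_rep]; exact hn.2)
  g_mul := fun d n hd hn h => by
    obtain ⟨d, rfl⟩ := mkM_surj d
    obtain ⟨n, rfl⟩ := mkM_surj n
    have h1 := mkM_ne_zero.1 hd.1.ne_zero
    have h2 := mkM_ne_zero.1 hn.1.ne_zero
    rw [← map_mul, ← map_pow, A.gM_mkM, A.gM_mkM, A.gM_mkM, A.chiM_mkM h2, clM_mkM, clM_mkM]
    exact A.gR_mul h1 h2 (isRelPrime_mkM.1 h)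
  E2_per := fun d => per_clM fun j => A.rc j (clM d) ^ 2
  norm_E2 := fun d n => by rw [norm_pow, A.norm_rc, one_pow]
  pair := hP
  Esg_per_left := fun b => per_clM fun j => A.rc j (clM b) * A.eps (clM b) * conj (A.eps j)
  Esg_per_right := fun a => per_clM fun j => A.rc (clM a) j * A.eps j * conj (A.eps (clM a))
  norm_Esg := fun a b => by
    rw [Esg, norm_mul, norm_mul, Complex.norm_conj, A.norm_rc, A.norm_eps, A.norm_eps]
    norm_num
  w_mul := fun b c hb hc => by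
    obtain ⟨b, rfl⟩ := mkM_surj b
    obtain ⟨c, rfl⟩ := mkM_surj c
    rw [← map_mul, A.wM_mkM, A.wM_mkM, A.wM_mkM]
    exact A.wR_mul (mkM_ne_zero.1 hb.ne_zero) (mkM_ne_zero.1 hc.ne_zero)
  w_one := by
    rw [← map_one mkM, A.wM_mkM, wR, Nr_one, A.lam_unit _ isUnit_one]
    simp
  norm_w := fun b hb => by
    obtain ⟨b, rfl⟩ := mkM_surj b
    rw [A.wM_mkM, wR, norm_mul, norm_pow, Complex.norm_conj,
      A.norm_lam _ (mkM_ne_zero.1 hb.ne_zero), one_pow, mul_one, Complex.norm_real,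
      Real.norm_of_nonneg (Real.sqrt_nonneg _), N_mkM]
  tau_eq := fun n b hn hb => by
    obtain ⟨n, rfl⟩ := mkM_surj n
    obtain ⟨b, rfl⟩ := mkM_surj b
    rw [← map_pow, ← map_mul, A.tauM_mkM, A.gM_mkM, A.wM_mkM]
    exact A.tauR_eq (squarefree_mkM.1 hn.2) (mkM_ne_zero.1 hb.ne_zero)
  tau_zero := fun k hk h => by
    obtain ⟨k, rfl⟩ := mkM_surj k
    rw [A.tauM_mkM]
    refine A.tauR_zero ?_
    rintro ⟨n, b, hn, hb, rfl⟩
    obtain ⟨b', hb', u, hu⟩ := exists_prim_assoc (mkM b) (mkM_ne_zero.2 hb)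
    have e : mkM (n * b ^ 3) = (mkM n * ((u⁻¹ : (M K)ˣ) : M K) ^ 3) * b' ^ 3 := by
      rw [map_mul, map_pow, ← hu, mul_assoc, ← mul_pow, mul_comm (mkM b) u, ← mul_assoc,
        Units.inv_mul, one_mul]
    refine h ⟨_, b', ⟨Ab.Prim.of_mul_right (hb'.pow 3) (e ▸ hk), ?_⟩, hb', e⟩
    exact (associated_mul_unit_left _ _ (u⁻¹.isUnit.pow 3)).squarefree_iff.2 (squarefree_mkM.2 hn)

theorem vhyp (hP : A.Pair) : Ab.VHyp (A.sext hP) Ray where
  assoc := exists_prim_assoc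
  recip := ⟨fun x m => A.rc (clM x) (clM m),
    fun x => ⟨per_clM fun j => A.rc (clM x) j, fun _ => (A.norm_rc _ _).le⟩,
    fun _ _ ha hm => A.chiM_recip ha.ne_zero hm.ne_zero, fun e m he hm => by
      have h := A.chiM_recip he.ne_zero hm.ne_zero
      rwa [A.chiM_unit he, mul_one] at h⟩
  ray := fun κ a b hκ ha hb x y m hm hx hy hxy hc => by
    obtain ⟨a, rfl⟩ := mkM_surj a
    obtain ⟨b, rfl⟩ := mkM_surj b
    have h1 := mkM_ne_zero.1 ha.ne_zero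
    have h2 := mkM_ne_zero.1 hb.ne_zero
    rw [← map_mul] at hm
    have h3 : a * b ∣ x - y := (associated_of_mkM_eq hm).dvd_iff_dvd_left.1 hxy
    change κ _ * (A.chiM _ _ ^ 2 * A.chiM _ _ ^ 3) = κ _ * (A.chiM _ _ ^ 2 * A.chiM _ _ ^ 3)
    rw [Per_eq hκ.1 hx hy hc, A.chiM_mkM h1, A.chiM_mkM h1, A.chiM_mkM h2, A.chiM_mkM h2,
      A.x6_per a h1 x y ((dvd_mul_right a b).trans h3),
      A.x6_per b h2 x y ((dvd_mul_left b a).trans h3)]

theorem muBound_of (hP : A.Pair) (hT : Ab.ThmT Ray A.tauM A.chiM) : MuBound K (11 / 12) :=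
  isQuot.muBound (Ab.muB_of_ThmT (A.sext hP) (A.vhyp hP) hT)

end SymA

end Vale.Agent.P016Z
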