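import Vale.Agent.P016Z.Inst.Api
import Vale.Agent.P016Z.Sym.Rec2
import Vale.Agent.P016Z.Sym.Gauss
import Vale.Agent.P016Z.Sym.Lam

/-!
P016, assembly of block II: the arithmetic data from the ray class property.
-/

namespace Vale.Agent.P016Z

variable {K : Type} [Field K] [NumberField K] [Dat K]

theorem symA_of_ray (h : Sym.RAY K) : Nonempty (SymA K) := by
  obtain ⟨r, hr⟩ := Sym.rec_of_ray (fun _ hn => Sym.gs_three hn) h
  exact ⟨symA hr Sym.lamStmt Sym.primG Sym.mobG (fun _ hn => Sym.gs_three hn)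
    (fun a b _ _ => Sym.lam_mul a b) (fun _ hu => Sym.lam_unit hu) fun _ hn => Sym.norm_lam hn⟩

end Vale.Agent.P016Z
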