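import Vale.Agent.P016Z.Inst.Sym
import Vale.Agent.P016Z.Sym.Ray

/-!
P016, assembly of block II: the arithmetic data exist.
-/

namespace Vale.Agent.P016Z

variable (K : Type) [Field K] [NumberField K] [Dat K]

theorem nonempty_symA : Nonempty (SymA K) := symA_of_ray Sym.ray

end Vale.Agent.P016Z
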